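import Vale.Agent.P006.Main.Forms
import Vale.Agent.P006.Main.Q1Final

/-!
P006, Q1: Patterson's first moment conjecture for cubic Gauss sums, rational-prime form.
-/

namespace Vale.Agent.Results.P006.KummerFirstMoment

open Filter Topology Real

/-- **Patterson's first moment conjecture** (rational-prime form). With Kummer's sum
`S_p = ∑_{x mod p} e^{2πi x³/p}`, as `X → ∞`,
`∑_{p ≤ X, p ≡ 1 (mod 3)} S_p / (2√p) ∼ (2π)^{2/3} / (5 Γ(2/3)) * X^{5/6} / log X`. -/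
theorem result :
    Tendsto (fun X : ℝ =>
      (∑ p ∈ (Finset.Icc 1 ⌊X⌋₊).filter (fun p : ℕ => p.Prime ∧ p % 3 = 1),
        (∑ x ∈ Finset.range p, Complex.exp (2 * π * Complex.I * ((x : ℂ) ^ 3 / p))) /
          ((2 * √(p : ℝ) : ℝ) : ℂ))
        / ((X ^ (5 / 6 : ℝ) / Real.log X : ℝ) : ℂ))
    atTop (𝓝 (((2 * π) ^ (2 / 3 : ℝ) / (5 * Real.Gamma (2 / 3)) : ℝ) : ℂ)) :=
  Vale.Agent.P006.q1_exp Vale.Agent.P006.q1_final

end Vale.Agent.Results.P006.KummerFirstMoment
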