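import Vale.Agent.P006.Main.Primary
import Vale.Agent.P006.Main.Q1Final

/-!
P006, Q1: Patterson's first moment conjecture for cubic Gauss sums, both forms.
-/

namespace Vale.Agent.Results.P006.PattersonFirstMoment

open Filter Topology Real Vale.Agent.P006.Std

/-- **Patterson's first moment conjecture**, in the primary-prime form
`∑_{Nϖ ≤ X, ϖ primary prime} G(ϖ) ∼ (6/5) c_* X^{5/6} / log X`, `c_* = (2π)^{2/3} / (3 Γ(2/3))`,
and in the rational-prime form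
`∑_{p ≤ X, p ≡ 1 (mod 3)} S_p / (2√p) ∼ (2π)^{2/3} / (5 Γ(2/3)) * X^{5/6} / log X`. -/
theorem result :
    Tendsto (fun X : ℝ =>
      (∑ᶠ ϖ ∈ primaryPrimesLE X, G ϖ) / ((X ^ (5 / 6 : ℝ) / Real.log X : ℝ) : ℂ))
      atTop (𝓝 ((6 / 5 * ((2 * π) ^ (2 / 3 : ℝ) / (3 * Real.Gamma (2 / 3))) : ℝ) : ℂ)) ∧
    Tendsto (fun X : ℝ =>
      (∑ p ∈ (Finset.Icc 1 ⌊X⌋₊).filter (fun p : ℕ => p.Prime ∧ p % 3 = 1),
        (∑ x ∈ Finset.range p, Complex.exp (2 * π * Complex.I * ((x : ℂ) ^ 3 / p))) /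
          ((2 * √(p : ℝ) : ℝ) : ℂ))
        / ((X ^ (5 / 6 : ℝ) / Real.log X : ℝ) : ℂ))
      atTop (𝓝 (((2 * π) ^ (2 / 3 : ℝ) / (5 * Real.Gamma (2 / 3)) : ℝ) : ℂ)) :=
  ⟨primaryForm_of_wf Vale.Agent.P006.wf_final, Vale.Agent.P006.q1_exp Vale.Agent.P006.q1_final⟩

end Vale.Agent.Results.P006.PattersonFirstMoment
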